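import Vale.Agent.P088.H833.JE.Defs
import Vale.Agent.P088.H582.AA

/-!
# P088, theorem JE, row AAF: compactness for finitely many sequences
-/

open Set Filter Topology
open scoped ContDiff

noncomputable section

namespace Vale.Agent.P088.H884

open Vale.Agent.P088.LR

variable {n : ℕ}

/-- Finitely many sequences, by induction. -/
theorem aaf_aux {ι : Type} (C : Set (V n)) (hC : IsCompact C) (B : ℕ → ℝ)
    (f : ι → ℕ → V n → ℝ) (hs : ∀ a m, ContDiff ℝ ∞ (f a m))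
    (h0 : ∀ a m, ∀ x ∉ C, f a m x = 0)
    (hb : ∀ a m, ∀ l ≤ m, ∀ x, ‖iteratedFDeriv ℝ l (f a m) x‖ ≤ B l) (s : Finset ι) :
    ∃ (φ : ℕ → ℕ) (g : ι → V n → ℝ), StrictMono φ ∧ ∀ a ∈ s, ContDiff ℝ ∞ (g a) ∧
      (∀ x ∉ C, g a x = 0) ∧ ∀ (l : ℕ) (ε : ℝ), 0 < ε → ∃ M : ℕ, ∀ m ≥ M, ∀ x,
        ‖iteratedFDeriv ℝ l (fun x => f a (φ m) x - g a x) x‖ ≤ ε := by
  classical
  induction s using Finset.induction_on with
  | empty => exact ⟨id, fun _ _ => 0, strictMono_id, fun a ha => absurd ha (Finset.notMem_empty a)⟩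
  | insert a s ha ih =>
    obtain ⟨φ, g, hφ, hg⟩ := ih
    obtain ⟨ψ, h, hψ, hh, hh0, hlim⟩ := H582.aa C hC B (fun m => f a (φ m))
      (fun m => hs a (φ m)) (fun m => h0 a (φ m))
      (fun m l hl x => hb a (φ m) l (hl.trans (hφ.le_apply)) x)
    refine ⟨φ ∘ ψ, Function.update g a h, hφ.comp hψ, fun b hbm => ?_⟩
    by_cases hba : b = a
    · subst hba
      rw [Function.update_self]
      exact ⟨hh, hh0, hlim⟩
    · have hbs : b ∈ s := (Finset.mem_insert.1 hbm).resolve_left hba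
      rw [Function.update_of_ne hba]
      obtain ⟨h1, h2, h3⟩ := hg b hbs
      refine ⟨h1, h2, fun l ε hε => ?_⟩
      obtain ⟨M, hM⟩ := h3 l ε hε
      exact ⟨M, fun m hm x => hM (ψ m) (hm.le.trans hψ.le_apply) x⟩

/-- Row AAF. -/
theorem aaf : JE.RowAAF := by
  intro n ι _ C hC B f hs h0 hb
  obtain ⟨φ, g, hφ, hg⟩ := aaf_aux C hC B f hs h0 (fun a m l hl x => hb a m l hl x) Finset.univ
  refine ⟨φ, g, hφ, fun a => (hg a (Finset.mem_univ a)).1,
    fun a => (hg a (Finset.mem_univ a)).2.1, fun k ε hε => ?_⟩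
  choose M hM using fun (a : ι) (l : ℕ) => (hg a (Finset.mem_univ a)).2.2 l ε hε
  refine ⟨Finset.univ.sup fun a => (Finset.range (k + 1)).sup (M a), fun m hm a l hl x =>
    hM a l m ?_ x⟩
  have h1 : M a l ≤ (Finset.range (k + 1)).sup (M a) :=
    Finset.le_sup (f := M a) (Finset.mem_range.2 (by omega))
  have h2 : (Finset.range (k + 1)).sup (M a) ≤
      Finset.univ.sup fun a => (Finset.range (k + 1)).sup (M a) :=
    Finset.le_sup (f := fun a => (Finset.range (k + 1)).sup (M a)) (Finset.mem_univ a)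
  exact (h1.trans h2).trans hm

end Vale.Agent.P088.H884
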